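import Vale.Agent.Lib.P302.Dp

/-! Reductions on lists of bins: removal of big items, and the composition argument. -/

namespace Vale.Agent.Lib.P302

lemma fits_replicate (c : ℕ) : ∀ bins : List (Multiset ℕ), (∀ t ∈ bins, t.sum ≤ c) →
    Fits bins (List.replicate bins.length c) := by
  intro bins
  induction bins with
  | nil => intro _; simp [Fits]
  | cons u us ih =>
    intro h
    simp only [List.length_cons, List.replicate_succ, Fits]
    exact ⟨h u (by simp), ih (fun t ht => h t (by simp [ht]))⟩

lemma fits_split : ∀ (A C : List ℕ) (bins : List (Multiset ℕ)), Fits bins (A ++ C) →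
    ∃ b1 b2, bins = b1 ++ b2 ∧ Fits b1 A ∧ Fits b2 C := by
  intro A
  induction A with
  | nil => intro C bins h; exact ⟨[], bins, rfl, by simp [Fits], by simpa using h⟩
  | cons c cs ih =>
    intro C bins h
    cases bins with
    | nil => simp [Fits] at h
    | cons u us =>
      simp only [List.cons_append, Fits] at h
      obtain ⟨b1, b2, e, h1, h2⟩ := ih C us h.2
      exact ⟨u :: b1, b2, by simp [e], ⟨h.1, h1⟩, h2⟩

lemma fits_replicate_iff (c : ℕ) : ∀ (n : ℕ) (bins : List (Multiset ℕ)),
    Fits bins (List.replicate n c) → bins.length = n ∧ ∀ t ∈ bins, t.sum ≤ c := by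
  intro n
  induction n with
  | zero =>
    intro bins h
    cases bins with
    | nil => simp
    | cons _ _ => simp [Fits] at h
  | succ n ih =>
    intro bins h
    cases bins with
    | nil => simp [Fits] at h
    | cons u us =>
      simp only [List.replicate_succ, Fits] at h
      obtain ⟨h1, h2⟩ := ih us h.2
      refine ⟨by simp [h1], ?_⟩
      intro t ht
      rcases List.mem_cons.1 ht with rfl | ht
      · exact h.1
      · exact h2 t ht

lemma mem_sum_bins (bins : List (Multiset ℕ)) (b : ℕ) (h : b ∈ bins.sum) : ∃ t ∈ bins, b ∈ t := by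
  induction bins with
  | nil => simp at h
  | cons u us ih =>
    simp only [List.sum_cons, Multiset.mem_add] at h
    rcases h with h | h
    · exact ⟨u, by simp, h⟩
    · obtain ⟨t, ht, hb⟩ := ih h
      exact ⟨t, by simp [ht], hb⟩

lemma sum_erase_bins (bins : List (Multiset ℕ)) (t : Multiset ℕ) (h : t ∈ bins) :
    bins.sum = t + (bins.erase t).sum := by
  induction bins with
  | nil => simp at h
  | cons u us ih =>
    by_cases hu : u = t
    · subst hu; simp
    · have ht : t ∈ us := by
        rcases List.mem_cons.1 h with h | h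
        · exact absurd h.symm hu
        · exact h
      rw [List.erase_cons_tail (by simpa using hu)]
      simp only [List.sum_cons]
      rw [ih ht]
      abel

lemma sum_mono_ms {s t : Multiset ℕ} (h : s ≤ t) : s.sum ≤ t.sum := by
  obtain ⟨c, rfl⟩ := Multiset.le_iff_exists_add.1 h
  simp [Multiset.sum_add]

lemma big_not_mem (L : ℕ) (t : Multiset ℕ) (b : ℕ) (hb : b ∈ t)
    (ht : t.sum ≤ L) (b' : ℕ) (h : L < b + b') : b' ∉ t.erase b := by
  intro hm
  have h1 : b + b' ≤ t.sum := by
    have e : t = b ::ₘ t.erase b := (Multiset.cons_erase hb).symm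
    have e2 : t.erase b = b' ::ₘ (t.erase b).erase b' := (Multiset.cons_erase hm).symm
    rw [e, Multiset.sum_cons, e2, Multiset.sum_cons]
    omega
  omega

/-- Removal of big items: every bin holds at most one item of `bs`. -/
lemma big_elim (L : ℕ) : ∀ (bs : List ℕ) (bins : List (Multiset ℕ)) (rest : Multiset ℕ),
    (∀ b ∈ bs, ∀ b' ∈ bs, L < b + b') → (∀ t ∈ bins, t.sum ≤ L) →
    bins.sum = (bs : Multiset ℕ) + rest →
    ∃ bins', bins'.length = bins.length ∧
      Fits bins' (bs.map (L - ·) ++ List.replicate (bins.length - bs.length) L) ∧ bins'.sum = rest := by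
  intro bs
  induction bs with
  | nil =>
    intro bins rest _ hb hs
    refine ⟨bins, rfl, ?_, by simpa using hs⟩
    simpa using fits_replicate L bins hb
  | cons b bs ih =>
    intro bins rest hp hb hs
    have hmem : b ∈ bins.sum := by rw [hs]; simp
    obtain ⟨t, ht, hbt⟩ := mem_sum_bins bins b hmem
    have ht' : t = b ::ₘ t.erase b := (Multiset.cons_erase hbt).symm
    have hload : (t.erase b).sum ≤ L - b := by
      have := hb t ht
      rw [ht', Multiset.sum_cons] at this
      omega
    have hsum := sum_erase_bins bins t ht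
    -- total after removing the bin of `b`
    have h1 : (bins.erase t).sum + t.erase b = (bs : Multiset ℕ) + rest := by
      have h2 : b ::ₘ ((bins.erase t).sum + t.erase b) = b ::ₘ ((bs : Multiset ℕ) + rest) := by
        have h3 : bins.sum = b ::ₘ (t.erase b + (bins.erase t).sum) := by
          rw [hsum]; nth_rewrite 1 [ht']; simp
        rw [h3] at hs
        have h4 : ((b :: bs : List ℕ) : Multiset ℕ) + rest = b ::ₘ ((bs : Multiset ℕ) + rest) := by
          rw [← Multiset.cons_coe, Multiset.cons_add]
        rw [h4] at hs
        rw [add_comm]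
        exact hs
      exact (Multiset.cons_inj_right b).1 h2
    -- no item of `bs` is left in the bin of `b`
    have hnone : ∀ b' ∈ bs, b' ∉ t.erase b := fun b' hb' =>
      big_not_mem L t b hbt (hb t ht) b' (hp b (by simp) b' (by simp [hb']))
    have hle : t.erase b ≤ rest := by
      rw [Multiset.le_iff_count]
      intro a
      by_cases ha : a ∈ t.erase b
      · have hnb : a ∉ bs := fun h => hnone a h ha
        have hc := congrArg (Multiset.count a) h1
        simp only [Multiset.count_add, Multiset.coe_count] at hc
        have hz : List.count a bs = 0 := List.count_eq_zero.2 hnb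
        omega
      · rw [Multiset.count_eq_zero.2 ha]; exact Nat.zero_le _
    have h5 : (bins.erase t).sum = (bs : Multiset ℕ) + (rest - t.erase b) := by
      have h6 : (bins.erase t).sum + t.erase b = ((bs : Multiset ℕ) + (rest - t.erase b)) + t.erase b := by
        rw [h1, add_assoc, tsub_add_cancel_of_le hle]
      exact add_right_cancel h6
    obtain ⟨bins', hl, hf, hsum'⟩ := ih (bins.erase t) (rest - t.erase b)
      (fun x hx y hy => hp x (by simp [hx]) y (by simp [hy]))
      (fun u hu => hb u (List.mem_of_mem_erase hu)) h5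
    refine ⟨t.erase b :: bins', ?_, ?_, ?_⟩
    · have : 0 < bins.length := List.length_pos_of_mem ht
      rw [List.length_erase_of_mem ht] at hl
      simp only [List.length_cons, hl]
      omega
    · simp only [List.map_cons, List.length_cons, List.cons_append, Fits]
      refine ⟨hload, ?_⟩
      rw [List.length_erase_of_mem ht] at hf
      have e : bins.length - (bs.length + 1) = bins.length - 1 - bs.length := by omega
      rw [e]
      exact hf
    · simp only [List.sum_cons, hsum']
      rw [add_comm, tsub_add_cancel_of_le hle]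

/-- Certificate with removal of big items. -/
theorem no_fit_big (L k : ℕ) (bs : List ℕ) (ts : List Ty) (hnd : Nd ts)
    (hp : ∀ b ∈ bs, ∀ b' ∈ bs, L < b + b')
    (h : (run ts (bs.map (L - ·) ++ List.replicate (k - bs.length) L)).testBit (target ts) = false)
    (bins : List (Multiset ℕ)) (hk : bins.length = k) (hb : ∀ t ∈ bins, t.sum ≤ L) :
    bins.sum ≠ (bs : Multiset ℕ) + items ts := by
  intro hs
  obtain ⟨bins', _, hf, hsum⟩ := big_elim L bs bins (items ts) hp hb hs
  rw [hk] at hf
  exact no_fit ts hnd _ h bins' hf hsum

lemma filter_sum_bins (p : ℕ → Prop) [DecidablePred p] (bins : List (Multiset ℕ)) :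
    (bins.map (Multiset.filter p)).sum = Multiset.filter p bins.sum := by
  induction bins with
  | nil => simp
  | cons u us ih => simp [ih, Multiset.filter_add]

lemma sum_filter_add_le (a t : ℕ) (u : Multiset ℕ) (hat : t ≤ a) (ht : t ∈ u) :
    (Multiset.filter (a < ·) u).sum + t ≤ u.sum := by
  have h1 : t ::ₘ Multiset.filter (a < ·) u ≤ u := by
    refine (Multiset.cons_le_of_notMem ?_).2 ⟨ht, Multiset.filter_le _ _⟩
    intro h
    have := (Multiset.mem_filter.1 h).2
    omega
  have h2 := sum_mono_ms h1
  rw [Multiset.sum_cons] at h2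
  omega

lemma insert_bins (L x : ℕ) : ∀ (C : List (Multiset ℕ)) (u : Multiset ℕ), u ∈ C →
    (∀ t ∈ C, t.sum ≤ L) → u.sum + x ≤ L →
    ∃ C' : List (Multiset ℕ), C'.length = C.length ∧ (∀ t ∈ C', t.sum ≤ L) ∧
      C'.sum = C.sum + {x} := by
  intro C
  induction C with
  | nil => intro u hu; simp at hu
  | cons v vs ih =>
    intro u hu hC hux
    by_cases hvu : v = u
    · subst hvu
      refine ⟨(x ::ₘ v) :: vs, by simp, ?_, ?_⟩
      · intro t ht
        rcases List.mem_cons.1 ht with rfl | ht
        · simp only [Multiset.sum_cons]; omega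
        · exact hC t (by simp [ht])
      · simp only [List.sum_cons]
        rw [← Multiset.singleton_add]
        abel
    · have hu' : u ∈ vs := by
        rcases List.mem_cons.1 hu with h | h
        · exact absurd h.symm hvu
        · exact h
      obtain ⟨C', h1, h2, h3⟩ := ih u hu' (fun t ht => hC t (by simp [ht])) hux
      refine ⟨v :: C', by simp [h1], ?_, ?_⟩
      · intro t ht
        rcases List.mem_cons.1 ht with rfl | ht
        · exact hC _ (by simp)
        · exact h2 t ht
      · simp only [List.sum_cons, h3]
        abel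

/-- The composition argument. `big` forces `k2` bins of capacity `a = L - big`. The items of `S`
do not fit in such a bin; the items of `T2` have size between `x` and `a`. If `S + {x}` does not
fit in `k` bins and `T2` does not fit in `k2` bins of capacity `a` then the whole instance does not
fit in `k + k2` bins. -/
theorem compose (L k k2 big x a : ℕ) (S T2 : Multiset ℕ)
    (hbig : L < big + big) (ha : a = L - big)
    (hS : ∀ s ∈ S, a < s) (hT : ∀ t ∈ T2, t ≤ a ∧ x ≤ t)
    (cS : ∀ bins : List (Multiset ℕ), bins.length = k → (∀ t ∈ bins, t.sum ≤ L) →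
      bins.sum ≠ S + {x})
    (cT : ∀ bins : List (Multiset ℕ), bins.length = k2 → (∀ t ∈ bins, t.sum ≤ a) →
      bins.sum ≠ T2)
    (bins : List (Multiset ℕ)) (hk : bins.length = k + k2) (hb : ∀ t ∈ bins, t.sum ≤ L) :
    bins.sum ≠ ((List.replicate k2 big : List ℕ) : Multiset ℕ) + (S + T2) := by
  intro hs
  obtain ⟨bins', hl, hf, hsum⟩ := big_elim L (List.replicate k2 big) bins (S + T2)
    (by
      intro b hb1 b' hb2
      rw [List.eq_of_mem_replicate hb1, List.eq_of_mem_replicate hb2]
      exact hbig) hb hs
  simp only [List.map_replicate, List.length_replicate, hk] at hf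
  have e : k + k2 - k2 = k := by omega
  rw [e, ← ha] at hf
  obtain ⟨A, C, rfl, hA, hC⟩ := fits_split _ _ _ hf
  obtain ⟨hAl, hAs⟩ := fits_replicate_iff _ _ _ hA
  obtain ⟨hCl, hCs⟩ := fits_replicate_iff _ _ _ hC
  rw [List.sum_append] at hsum
  -- items of `A` are small
  have hAsmall : ∀ y ∈ A.sum, y ≤ a := by
    intro y hy
    obtain ⟨t, ht, hyt⟩ := mem_sum_bins A y hy
    exact le_trans (Multiset.single_le_sum (fun _ _ => Nat.zero_le _) y hyt) (hAs t ht)
  have hfA : Multiset.filter (a < ·) A.sum = 0 := by
    apply Multiset.filter_eq_nil.2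
    intro y hy
    have := hAsmall y hy
    omega
  have hfS : Multiset.filter (a < ·) S = S := Multiset.filter_eq_self.2 hS
  have hfT : Multiset.filter (a < ·) T2 = 0 := by
    apply Multiset.filter_eq_nil.2
    intro y hy
    have := (hT y hy).1
    omega
  have hfC : Multiset.filter (a < ·) C.sum = S := by
    have := congrArg (Multiset.filter (a < ·)) hsum
    rw [Multiset.filter_add, Multiset.filter_add, hfA, hfS, hfT] at this
    simpa using this
  -- bins of `C` with only the items of `S`
  have hC1 : (C.map (Multiset.filter (a < ·))).sum = S := by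
    rw [filter_sum_bins, hfC]
  by_cases hex : ∃ t ∈ C.sum, t ≤ a
  · obtain ⟨t, ht, hta⟩ := hex
    obtain ⟨u, hu, htu⟩ := mem_sum_bins C t ht
    have htT : t ∈ T2 := by
      have h2 : t ∈ A.sum + C.sum := Multiset.mem_add.2 (Or.inr ht)
      rw [hsum] at h2
      rcases Multiset.mem_add.1 h2 with h3 | h3
      · have := hS t h3
        omega
      · exact h3
    have hxt := (hT t htT).2
    have hu1 := sum_filter_add_le a t u hta htu
    have hu2 := hCs u hu
    obtain ⟨C', h1, h2, h3⟩ := insert_bins L x (C.map (Multiset.filter (a < ·)))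
      (Multiset.filter (a < ·) u) (List.mem_map.2 ⟨u, hu, rfl⟩)
      (by
        intro v hv
        obtain ⟨w, hw, rfl⟩ := List.mem_map.1 hv
        exact le_trans (sum_mono_ms (Multiset.filter_le _ _)) (hCs w hw))
      (by omega)
    apply cS C' (by simp [h1, hCl]) h2
    rw [h3, hC1]
  · -- all of `T2` lies in `A`
    simp only [not_exists, not_and, not_le] at hex
    have hCS : C.sum = S := by
      rw [← hfC]
      symm
      apply Multiset.filter_eq_self.2
      exact hex
    have hAT : A.sum = T2 := by
      rw [hCS] at hsum
      have : A.sum + S = T2 + S := by rw [hsum, add_comm]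
      exact add_right_cancel this
    exact cT A hAl hAs hAT

end Vale.Agent.Lib.P302
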