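import Vale.Agent.Lib.P302.Defs
import Vale.Agent.Lib.P302.Comp

/-! From rational instances to natural numbers: bins as multisets; explicit LP covers. -/

namespace Vale.Agent.Lib.P302

lemma sum_univ_singleton_list (J : List ℕ) :
    ∑ i : Fin J.length, ({J.get i} : Multiset ℕ) = (J : Multiset ℕ) := by
  have h : (Finset.univ : Finset (Fin J.length)).val.map (fun i => J.get i) = (J : Multiset ℕ) := by
    rw [Fin.univ_val_map]
    simp
  rw [← h]
  simp only [Finset.sum]
  induction (Finset.univ : Finset (Fin J.length)).val using Multiset.induction_on with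
  | empty => simp
  | cons a s ih =>
    simp only [Multiset.map_cons, Multiset.sum_cons, ih]
    rw [Multiset.singleton_add]

/-- A packing gives a list of bins. -/
lemma bins_of_packable (J : List ℕ) (L m : ℕ) (hL : 0 < L) (h : Packable (scaled J L) m) :
    ∃ bins : List (Multiset ℕ), bins.length = m ∧ (∀ t ∈ bins, t.sum ≤ L) ∧
      bins.sum = (J : Multiset ℕ) := by
  obtain ⟨f, hf⟩ := h
  have hlen : (scaled J L).length = J.length := by simp [scaled]
  let g : Fin J.length → Fin m := fun i => f (i.cast hlen.symm)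
  let t : Fin m → Multiset ℕ := fun b =>
    ∑ i ∈ Finset.univ.filter (fun i => g i = b), ({J.get i} : Multiset ℕ)
  have ht : ∀ b, (t b).sum = ∑ i ∈ Finset.univ.filter (fun i => g i = b), J.get i := by
    intro b
    have := map_sum (Multiset.sumAddMonoidHom (M := ℕ)) (fun i => ({J.get i} : Multiset ℕ))
      (Finset.univ.filter (fun i => g i = b))
    simp only [Multiset.coe_sumAddMonoidHom, Multiset.sum_singleton] at this
    exact this
  have hload : ∀ b, (t b).sum ≤ L := by
    intro b
    rw [ht]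
    have h1 : ∑ i ∈ Finset.univ.filter (fun i => g i = b), (((J.get i : ℕ) : ℚ) / (L : ℚ))
        = ∑ i ∈ Finset.univ.filter (fun i => f i = b), (scaled J L).get i := by
      apply Finset.sum_equiv (finCongr hlen.symm)
      · intro i
        simp [g]
      · intro i _
        simp only [scaled, List.get_eq_getElem, List.getElem_map]
        rfl
    have h2 := hf b
    rw [← h1, ← Finset.sum_div, div_le_one (by exact_mod_cast hL)] at h2
    exact_mod_cast h2
  refine ⟨List.ofFn t, by simp, ?_, ?_⟩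
  · intro u hu
    obtain ⟨b, rfl⟩ := (List.mem_ofFn' _ _).1 hu
    exact hload b
  · rw [List.sum_ofFn]
    have := Finset.sum_fiberwise (Finset.univ : Finset (Fin J.length)) g
      (fun i => ({J.get i} : Multiset ℕ))
    rw [← sum_univ_singleton_list J, ← this]

lemma packable_self (I : List ℚ) (h : ∀ a ∈ I, a ≤ 1) : Packable I I.length := by
  refine ⟨id, fun b => ?_⟩
  have : Finset.univ.filter (fun i : Fin I.length => id i = b) = {b} := by
    ext i
    simp
  rw [this, Finset.sum_singleton]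
  exact h _ (List.get_mem _ _)

/-- Lower bound for `OPT` from the impossibility of `k` bins. -/
theorem opt_ge (J : List ℕ) (L k : ℕ) (hL : 0 < L) (hJ : ∀ a ∈ J, a ≤ L)
    (h : ∀ bins : List (Multiset ℕ), bins.length = k → (∀ t ∈ bins, t.sum ≤ L) →
      bins.sum ≠ (J : Multiset ℕ)) : k + 1 ≤ OPT (scaled J L) := by
  have hne : {m | Packable (scaled J L) m}.Nonempty := by
    refine ⟨_, packable_self _ ?_⟩
    intro a ha
    obtain ⟨b, hb, rfl⟩ := List.mem_map.1 ha
    rw [div_le_one (by exact_mod_cast hL)]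
    exact_mod_cast hJ b hb
  apply le_csInf hne
  intro m hm
  obtain ⟨bins, h1, h2, h3⟩ := bins_of_packable J L m hL hm
  by_contra hlt
  have hmk : m ≤ k := by omega
  apply h (bins ++ List.replicate (k - m) 0)
  · simp [h1]; omega
  · intro t ht
    rcases List.mem_append.1 ht with ht | ht
    · exact h2 t ht
    · rw [List.eq_of_mem_replicate ht]; simp
  · simp [h3]

lemma scaled_mem (J : List ℕ) (L : ℕ) (hL : 0 < L) (h : ∀ a ∈ J, 0 < a ∧ a ≤ L) :
    ∀ a ∈ scaled J L, 0 < a ∧ a ≤ 1 := by
  intro a ha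
  obtain ⟨b, hb, rfl⟩ := List.mem_map.1 ha
  have hL' : (0 : ℚ) < L := by exact_mod_cast hL
  have h1 := h b hb
  constructor
  · have : (0 : ℚ) < b := by exact_mod_cast h1.1
    positivity
  · rw [div_le_one hL']
    exact_mod_cast h1.2

/-- Number of copies of size `a` in a sparse pattern. -/
def cnt (p : List (ℕ × ℕ)) (a : ℕ) : ℕ := (p.map (fun e => if e.1 = a then e.2 else 0)).sum

/-- The check of an explicit fractional cover: weights `e.2 / D` on patterns `e.1`. -/
def coverOk (J : List ℕ) (L D : ℕ) (cover : List (List (ℕ × ℕ) × ℕ)) : Bool :=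
  cover.all (fun e => decide ((J.dedup.map (fun a => a * cnt e.1 a)).sum ≤ L)) &&
    J.dedup.all (fun a => decide (J.count a * D ≤ (cover.map (fun e => cnt e.1 a * e.2)).sum))

lemma scaled_inj (L : ℕ) (hL : 0 < L) : Function.Injective (fun a : ℕ => (a : ℚ) / (L : ℚ)) := by
  intro a b h
  have hL' : (L : ℚ) ≠ 0 := by exact_mod_cast hL.ne'
  have h1 : (a : ℚ) / (L : ℚ) = (b : ℚ) / (L : ℚ) := h
  have : (a : ℚ) = b := (div_left_inj' hL').1 h1
  exact_mod_cast this

lemma floor_scaled (a L : ℕ) (hL : 0 < L) : ⌊((a : ℚ) / (L : ℚ)) * (L : ℚ)⌋₊ = a := by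
  have hL' : (L : ℚ) ≠ 0 := by exact_mod_cast hL.ne'
  rw [div_mul_cancel₀ _ hL']
  simp

lemma toFinset_scaled (J : List ℕ) (L : ℕ) :
    (scaled J L).toFinset = J.toFinset.image (fun a : ℕ => (a : ℚ) / (L : ℚ)) := by
  ext σ
  simp [scaled]

lemma sum_toFinset_eq_dedup {β : Type*} [AddCommMonoid β] (J : List ℕ) (f : ℕ → β) :
    ∑ a ∈ J.toFinset, f a = (J.dedup.map f).sum := by
  simp only [Finset.sum, List.toFinset_val, Multiset.map_coe, Multiset.sum_coe]

/-- An explicit cover bounds `LP` from above. -/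
theorem lp_le (J : List ℕ) (L D : ℕ) (hL : 0 < L) (hD : 0 < D)
    (cover : List (List (ℕ × ℕ) × ℕ)) (h : coverOk J L D cover = true) :
    LP (scaled J L) ≤ (((cover.map (·.2)).sum : ℕ) : ℝ) / (D : ℝ) := by
  simp only [coverOk, Bool.and_eq_true, List.all_eq_true, decide_eq_true_eq] at h
  obtain ⟨h1, h2⟩ := h
  have hD' : (0 : ℝ) < D := by exact_mod_cast hD
  have hL' : (L : ℚ) ≠ 0 := by exact_mod_cast hL.ne'
  apply csInf_le
  · refine ⟨0, ?_⟩
    rintro v ⟨N, c, z, _, hz, _, rfl⟩
    exact Finset.sum_nonneg (fun j _ => hz j)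
  · refine ⟨cover.length, fun j σ => cnt (cover[j.1]).1 ⌊σ * (L : ℚ)⌋₊,
      fun j => ((cover[j.1]).2 : ℝ) / (D : ℝ), ?_, ?_, ?_, ?_⟩
    · intro j
      have he := h1 cover[j.1] (List.getElem_mem _)
      simp only [IsConfig]
      rw [toFinset_scaled, Finset.sum_image (fun a _ b _ hab => scaled_inj L hL hab)]
      have h3 : ∑ a ∈ J.toFinset, ((a : ℚ) / (L : ℚ)) *
            (cnt (cover[j.1]).1 ⌊((a : ℚ) / (L : ℚ)) * (L : ℚ)⌋₊ : ℚ)
          = (((J.dedup.map (fun a => a * cnt (cover[j.1]).1 a)).sum : ℕ) : ℚ) / (L : ℚ) := by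
        rw [← sum_toFinset_eq_dedup]
        push_cast
        rw [Finset.sum_div]
        apply Finset.sum_congr rfl
        intro a _
        rw [floor_scaled a L hL]
        ring
      rw [h3, div_le_one (by exact_mod_cast hL)]
      exact_mod_cast he
    · intro j
      positivity
    · intro σ hσ
      rw [toFinset_scaled] at hσ
      obtain ⟨a, ha, rfl⟩ := Finset.mem_image.1 hσ
      have ha' : a ∈ J.dedup := by simpa using ha
      have he := h2 a ha'
      have hcount : (scaled J L).count ((a : ℚ) / (L : ℚ)) = J.count a := by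
        simpa [scaled] using List.count_map_of_injective J _ (scaled_inj L hL) a
      rw [hcount]
      have h4 : ∑ j : Fin cover.length, ((cnt (cover[j.1]).1 ⌊((a : ℚ) / (L : ℚ)) * (L : ℚ)⌋₊ : ℕ) : ℝ)
            * (((cover[j.1]).2 : ℝ) / (D : ℝ))
          = (((cover.map (fun e => cnt e.1 a * e.2)).sum : ℕ) : ℝ) / (D : ℝ) := by
        rw [floor_scaled a L hL]
        rw [← Fin.sum_univ_fun_getElem cover (fun e => cnt e.1 a * e.2)]
        push_cast
        rw [Finset.sum_div]
        apply Finset.sum_congr rfl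
        intro j _
        ring
      rw [h4, le_div_iff₀ hD']
      exact_mod_cast he
    · rw [← Fin.sum_univ_fun_getElem cover (fun e => e.2)]
      push_cast
      rw [Finset.sum_div]

/-- The gap obtained from an explicit cover and a bound on the number of bins. -/
theorem gap_ge (J : List ℕ) (L k D : ℕ) (hL : 0 < L) (hD : 0 < D) (hJ : ∀ a ∈ J, a ≤ L)
    (h : ∀ bins : List (Multiset ℕ), bins.length = k → (∀ t ∈ bins, t.sum ≤ L) →
      bins.sum ≠ (J : Multiset ℕ))
    (cover : List (List (ℕ × ℕ) × ℕ)) (hc : coverOk J L D cover = true) :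
    ((k : ℝ) + 1) - (((cover.map (·.2)).sum : ℕ) : ℝ) / (D : ℝ) ≤ (OPT (scaled J L) : ℝ) - LP (scaled J L) := by
  have h1 : ((k + 1 : ℕ) : ℝ) ≤ (OPT (scaled J L) : ℝ) := by
    exact_mod_cast opt_ge J L k hL hJ h
  have h2 := lp_le J L D hL hD cover hc
  push_cast at h1
  linarith

end Vale.Agent.Lib.P302
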