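import Mathlib

namespace Vale.Agent.Lib.P302

/-- The items of the list `I` of rational sizes can be distributed over `m` bins
so that every bin has total size at most `1`. -/
def Packable (I : List ℚ) (m : ℕ) : Prop :=
  ∃ f : Fin I.length → Fin m, ∀ b : Fin m, ∑ i ∈ Finset.univ.filter (fun i => f i = b), I.get i ≤ 1

/-- `OPT I`: the least number of bins into which the items of `I` can be packed. -/
noncomputable def OPT (I : List ℚ) : ℕ := sInf {m | Packable I m}

/-- A configuration for `I`: a multiplicity `c σ` for every distinct size `σ` of `I`, of total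
size at most `1`; a size may occur more often than its multiplicity in `I`. -/
def IsConfig (I : List ℚ) (c : ℚ → ℕ) : Prop := ∑ σ ∈ I.toFinset, σ * (c σ : ℚ) ≤ 1

/-- `v` is the value of a feasible solution of the Gilmore-Gomory configuration LP of `I`:
finitely many configurations `c j` with weights `z j ≥ 0` covering each distinct size `σ` at least
as often as its multiplicity `I.count σ`, with total weight `v`. -/
def LPFeasible (I : List ℚ) (v : ℝ) : Prop :=
  ∃ (N : ℕ) (c : Fin N → ℚ → ℕ) (z : Fin N → ℝ),
    (∀ j, IsConfig I (c j)) ∧ (∀ j, 0 ≤ z j) ∧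
    (∀ σ ∈ I.toFinset, (I.count σ : ℝ) ≤ ∑ j, (c j σ : ℝ) * z j) ∧ ∑ j, z j = v

/-- `LP I`: the optimal value of the configuration LP of `I`. -/
noncomputable def LP (I : List ℚ) : ℝ := sInf {v | LPFeasible I v}

/-- The instance with natural sizes `J` and bin capacity `L`: sizes `a / L`. -/
def scaled (J : List ℕ) (L : ℕ) : List ℚ := J.map (fun a : ℕ => (a : ℚ) / (L : ℚ))

/-- The list with the sizes of the pairs `(size, multiplicity)` repeated. -/
def expand (p : List (ℕ × ℕ)) : List ℕ := p.flatMap (fun e => List.replicate e.2 e.1)

end Vale.Agent.Lib.P302
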