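import Mathlib

/-! Bitset dynamic program: a kernel-checkable proof that a list of typed items does not fit
into bins of given capacities. A state is a count vector, coded in mixed radix by weights. -/

namespace Vale.Agent.Lib.P302

/-- An item type: size, count, weight. -/
abbrev Ty := ℕ × ℕ × ℕ

/-- Weighted code of a count vector indexed by sizes. -/
def code : List Ty → (ℕ → ℕ) → ℕ
  | [], _ => 0
  | t :: ts, v => v t.1 * t.2.2 + code ts v

/-- Union of the shifts of `m` by `c * w`, `c ≤ n`. -/
def orShift (m w : ℕ) : ℕ → ℕ
  | 0 => m
  | n + 1 => orShift m w n ||| (m <<< ((n + 1) * w))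

/-- Bitset of all count vectors with digit bounded by the count, except that the bound of size `a`
is lowered by one. -/
def maskOf (a : ℕ) : List Ty → ℕ
  | [] => 1
  | t :: ts => orShift (maskOf a ts) t.2.2 (if t.1 = a then t.2.1 - 1 else t.2.1)

/-- Loop over the number of copies of the current type. -/
def go (rec : ℕ → ℕ → ℕ) (a M w : ℕ) : ℕ → ℕ → ℕ → ℕ
  | 0, cap, cur => rec cap cur
  | f + 1, cap, cur =>
    rec cap cur ||| (if a ≤ cap then go rec a M w f (cap - a) ((cur &&& M) <<< w) else 0)

/-- `sumset all ss cap R`: all states obtained from a state of `R` by adding a set of items of the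
types `ss` of total size at most `cap`. -/
def sumset (all : List Ty) : List Ty → ℕ → ℕ → ℕ
  | [], _, R => R
  | t :: ss, cap, R => go (sumset all ss) t.1 (maskOf t.1 all) t.2.2 t.2.1 cap R

/-- Reachable states after filling bins with the given capacities. -/
def run (all : List Ty) : List ℕ → ℕ
  | [] => 1
  | c :: cs => sumset all all c (run all cs)

/-- The code of the full count vector. -/
def target : List Ty → ℕ
  | [] => 0
  | t :: ts => t.2.1 * t.2.2 + target ts

/-- The multiset of all items. -/
def items : List Ty → Multiset ℕ
  | [] => 0
  | t :: ts => Multiset.replicate t.2.1 t.1 + items ts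

/-- A list of bins fits a list of capacities. -/
def Fits : List (Multiset ℕ) → List ℕ → Prop
  | [], [] => True
  | t :: ts, c :: cs => t.sum ≤ c ∧ Fits ts cs
  | _, _ => False

lemma testBit_orShift (m w n c q : ℕ) (hc : c ≤ n) (hq : m.testBit q = true) :
    (orShift m w n).testBit (c * w + q) = true := by
  induction n with
  | zero =>
    have : c = 0 := by omega
    subst this
    simpa [orShift] using hq
  | succ n ih =>
    rw [orShift, Nat.testBit_or]
    rcases Nat.lt_or_ge c (n + 1) with h | h
    · simp [ih (by omega)]
    · have : c = n + 1 := by omega
      subst this
      have h2 : ((m <<< ((n + 1) * w)).testBit ((n + 1) * w + q)) = true := by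
        rw [Nat.testBit_shiftLeft]
        simp [hq]
      simp [h2]

lemma testBit_maskOf (a : ℕ) (ts : List Ty) (y : ℕ → ℕ)
    (hy : ∀ t ∈ ts, y t.1 ≤ if t.1 = a then t.2.1 - 1 else t.2.1) :
    (maskOf a ts).testBit (code ts y) = true := by
  induction ts with
  | nil => simp [maskOf, code]
  | cons t ts ih =>
    simp only [maskOf, code]
    apply testBit_orShift
    · exact hy t (by simp)
    · exact ih (fun s hs => hy s (by simp [hs]))

lemma testBit_go (rec : ℕ → ℕ → ℕ) (a M w q Z C : ℕ) (d : ℕ)
    (hM : ∀ i < d, M.testBit (q + i * w) = true)
    (hrec : ∀ cap cur, C ≤ cap → cur.testBit (q + d * w) = true → (rec cap cur).testBit Z = true) :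
    ∀ (fuel cap cur : ℕ), d ≤ fuel → d * a + C ≤ cap → cur.testBit q = true →
      (go rec a M w fuel cap cur).testBit Z = true := by
  induction d generalizing q with
  | zero =>
    intro fuel cap cur _ hcap hcur
    have h := hrec cap cur (by omega) (by simpa using hcur)
    cases fuel with
    | zero => simpa [go] using h
    | succ f => simp [go, Nat.testBit_or, h]
  | succ d ih =>
    intro fuel cap cur hd hcap hcur
    cases fuel with
    | zero => omega
    | succ f =>
      have hcap2 : a ≤ cap := by
        have : (d + 1) * a = d * a + a := by ring
        omega
      have hbit : (((cur &&& M) <<< w)).testBit (q + w) = true := by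
        rw [Nat.testBit_shiftLeft]
        have h0 := hM 0 (by omega)
        have h0' : M.testBit q = true := by simpa using h0
        have e : q + w - w = q := by omega
        simp [e, Nat.testBit_and, hcur, h0']
      have h2 := ih (q := q + w)
        (fun i hi => by
          have := hM (i + 1) (by omega)
          have e : q + w + i * w = q + (i + 1) * w := by ring
          rw [e]; exact this)
        (fun cap' cur' hc' hb => hrec cap' cur' hc' (by
          have e : q + w + d * w = q + (d + 1) * w := by ring
          rw [e] at hb; exact hb))
        f (cap - a) _ (by omega)
        (by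
          have : (d + 1) * a = d * a + a := by ring
          omega)
        hbit
      simp [go, Nat.testBit_or, hcap2, h2]

/-- Distinct sizes. -/
def Nd (all : List Ty) : Prop := (all.map (·.1)).Nodup

lemma code_congr (ts : List Ty) (y z : ℕ → ℕ) (h : ∀ t ∈ ts, y t.1 = z t.1) :
    code ts y = code ts z := by
  induction ts with
  | nil => rfl
  | cons t ts ih =>
    simp only [code]
    rw [h t (by simp), ih (fun s hs => h s (by simp [hs]))]

lemma code_update (ts : List Ty) (hnd : Nd ts) (y : ℕ → ℕ) (a n w i : ℕ) (ht : (a, n, w) ∈ ts) :
    code ts (Function.update y a (y a + i)) = code ts y + i * w := by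
  induction ts with
  | nil => simp at ht
  | cons t ts ih =>
    simp only [Nd, List.map_cons, List.nodup_cons] at hnd
    simp only [code]
    rcases List.mem_cons.1 ht with h | h
    · subst h
      have : code ts (Function.update y a (y a + i)) = code ts y := by
        apply code_congr
        intro s hs
        have : s.1 ≠ a := by
          intro hh
          apply hnd.1
          exact List.mem_map.2 ⟨s, hs, hh⟩
        simp [Function.update_of_ne this]
      simp only [this]
      simp
      ring
    · have hne : t.1 ≠ a := by
        intro hh
        apply hnd.1
        rw [hh]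
        exact List.mem_map.2 ⟨_, h, rfl⟩
      rw [Function.update_of_ne hne, ih hnd.2 h]
      ring

/-- Specification of `sumset`: from a state `y`, the state `z` is reachable when `z` differs from
`y` only at sizes of `ss`, with `y ≤ z ≤ count` and the added items fit. -/
lemma testBit_sumset (all : List Ty) (hnd : Nd all) :
    ∀ (ss : List Ty) (_ : ∀ t ∈ ss, t ∈ all) (_ : (ss.map (·.1)).Nodup) (y z : ℕ → ℕ) (cap R : ℕ),
      (∀ t ∈ all, t.1 ∉ ss.map (·.1) → y t.1 = z t.1) →
      (∀ t ∈ all, y t.1 ≤ z t.1) →
      (∀ t ∈ all, z t.1 ≤ t.2.1) →
      (ss.map (fun t => (z t.1 - y t.1) * t.1)).sum ≤ cap →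
      R.testBit (code all y) = true →
      (sumset all ss cap R).testBit (code all z) = true := by
  intro ss
  induction ss with
  | nil =>
    intro _ _ y z cap R h1 _ _ _ hR
    have : code all y = code all z := code_congr _ _ _ (fun t ht => h1 t ht (by simp))
    simpa [sumset, ← this] using hR
  | cons t ss ih =>
    intro hss hssnd y z cap R h1 h2 h3 hcap hR
    rcases t with ⟨a, n, w⟩
    have hmem : (a, n, w) ∈ all := hss _ (by simp)
    simp only [List.map_cons, List.nodup_cons] at hssnd
    simp only [List.map_cons, List.sum_cons] at hcap
    simp only [sumset]
    have hle := h2 _ hmem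
    have hzn := h3 _ hmem
    simp only at hle hzn
    apply testBit_go (sumset all ss) a (maskOf a all) w (code all y) (code all z)
      (C := (ss.map (fun t => (z t.1 - y t.1) * t.1)).sum) (d := z a - y a)
    · intro i hi
      have e := code_update all hnd y a n w i hmem
      rw [← e]
      apply testBit_maskOf
      intro s hs
      by_cases hsa : s.1 = a
      · have hsn : s = (a, n, w) := by
          exact List.inj_on_of_nodup_map hnd hs hmem hsa
        subst hsn
        simp
        omega
      · simp only [hsa, if_false]
        rw [Function.update_of_ne hsa]
        exact le_trans (h2 s hs) (h3 s hs)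
    · intro cap' cur hc hb
      have e := code_update all hnd y a n w (z a - y a) hmem
      rw [← e] at hb
      have e2 : y a + (z a - y a) = z a := by omega
      rw [e2] at hb
      apply ih (fun t ht => hss t (by simp [ht])) hssnd.2 (Function.update y a (z a)) z cap' cur
      · intro s hs hns
        by_cases hsa : s.1 = a
        · simp [hsa]
        · rw [Function.update_of_ne hsa]
          exact h1 s hs (by simp [hsa, hns])
      · intro s hs
        by_cases hsa : s.1 = a
        · simp [hsa]
        · rw [Function.update_of_ne hsa]
          exact h2 s hs
      · exact h3
      · have : (ss.map (fun t => (z t.1 - Function.update y a (z a) t.1) * t.1)).sum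
            ≤ (ss.map (fun t => (z t.1 - y t.1) * t.1)).sum := by
          apply List.sum_le_sum
          intro s hs
          by_cases hsa : s.1 = a
          · exfalso
            apply hssnd.1
            rw [← hsa]
            exact List.mem_map.2 ⟨s, hs, rfl⟩
          · rw [Function.update_of_ne hsa]
        omega
      · exact hb
    · exact le_trans (Nat.sub_le _ _) hzn
    · simpa using hcap
    · exact hR

lemma sum_ite_le (as : List ℕ) (has : as.Nodup) (b : ℕ) :
    (as.map (fun a => if a = b then a else 0)).sum ≤ b := by
  induction as with
  | nil => simp
  | cons c cs ihc =>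
    simp only [List.nodup_cons] at has
    simp only [List.map_cons, List.sum_cons]
    by_cases hc : c = b
    · subst hc
      have : (cs.map (fun a => if a = c then a else 0)).sum = 0 := by
        apply List.sum_eq_zero
        intro x hx
        rcases List.mem_map.1 hx with ⟨u, hu, rfl⟩
        have : u ≠ c := fun h => has.1 (h ▸ hu)
        simp [this]
      simp [this]
    · simpa [hc] using ihc has.2

lemma sum_count_mul_le (as : List ℕ) (has : as.Nodup) (t : Multiset ℕ) :
    (as.map (fun a => t.count a * a)).sum ≤ t.sum := by
  induction t using Multiset.induction_on with
  | empty => simp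
  | cons b t ih =>
    have key : (as.map (fun a => (b ::ₘ t).count a * a)).sum
        = (as.map (fun a => t.count a * a)).sum + (as.map (fun a => if a = b then a else 0)).sum := by
      rw [← List.sum_map_add]
      congr 1
      apply List.map_congr_left
      intro a _
      by_cases h : a = b
      · subst h; simp; ring
      · simp [Multiset.count_cons_of_ne h, h]
    have h2 := sum_ite_le as has b
    rw [key, Multiset.sum_cons]
    omega

/-- Specification of `run`. -/
lemma testBit_run (all : List Ty) (hnd : Nd all) :
    ∀ (caps : List ℕ) (bins : List (Multiset ℕ)), Fits bins caps →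
      (∀ t ∈ all, bins.sum.count t.1 ≤ t.2.1) →
      (run all caps).testBit (code all (fun a => bins.sum.count a)) = true := by
  intro caps
  induction caps with
  | nil =>
    intro bins hf _
    cases bins with
    | nil =>
      simp only [run]
      have : code all (fun a => ([] : List (Multiset ℕ)).sum.count a) = 0 := by
        have hz : ∀ ts : List Ty, code ts (fun _ => 0) = 0 := by
          intro ts
          induction ts with
          | nil => rfl
          | cons t ts ih => simp [code, ih]
        simpa using hz all
      rw [this]
      decide
    | cons _ _ => simp [Fits] at hf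
  | cons c cs ih =>
    intro bins hf hle
    cases bins with
    | nil => simp [Fits] at hf
    | cons u bs =>
      simp only [Fits] at hf
      simp only [run]
      have hsum : (u :: bs).sum = u + bs.sum := by simp
      apply testBit_sumset all hnd all (fun t ht => ht) hnd (fun a => bs.sum.count a) _ c _
      · intro t ht hn
        exact absurd (List.mem_map.2 ⟨t, ht, rfl⟩) hn
      · intro t _
        simp [hsum]
      · exact hle
      · have : (all.map (fun t => ((u :: bs).sum.count t.1 - bs.sum.count t.1) * t.1)).sum
            = ((all.map (·.1)).map (fun a => u.count a * a)).sum := by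
          rw [List.map_map]
          congr 1
          apply List.map_congr_left
          intro t _
          simp [hsum]
        simp only [this]
        exact le_trans (sum_count_mul_le _ hnd u) hf.1
      · apply ih bs hf.2
        intro t ht
        refine le_trans ?_ (hle t ht)
        simp [hsum]

lemma code_items (ts : List Ty) (hnd : Nd ts) :
    code ts (fun a => (items ts).count a) = target ts := by
  induction ts with
  | nil => rfl
  | cons t ts ih =>
    simp only [Nd, List.map_cons, List.nodup_cons] at hnd
    simp only [code, target, items]
    have h1 : code ts (fun a => (Multiset.replicate t.2.1 t.1 + items ts).count a)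
        = code ts (fun a => (items ts).count a) := by
      apply code_congr
      intro s hs
      have : s.1 ≠ t.1 := fun h => hnd.1 (h ▸ List.mem_map.2 ⟨s, hs, rfl⟩)
      simp [Multiset.count_replicate, this.symm]
    have h2 : (items ts).count t.1 = 0 := by
      have : ∀ us : List Ty, t.1 ∉ us.map (·.1) → (items us).count t.1 = 0 := by
        intro us
        induction us with
        | nil => simp [items]
        | cons v vs ihv =>
          intro hv
          simp only [List.map_cons, List.mem_cons, not_or] at hv
          simp only [items, Multiset.count_add, Multiset.count_replicate]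
          simp [Ne.symm hv.1, ihv hv.2]
      exact this ts hnd.1
    rw [h1, ih hnd.2]
    simp [h2]

lemma count_items_le (ts : List Ty) (hnd : Nd ts) (t : Ty) (ht : t ∈ ts) :
    (items ts).count t.1 ≤ t.2.1 := by
  induction ts with
  | nil => simp at ht
  | cons u us ih =>
    simp only [Nd, List.map_cons, List.nodup_cons] at hnd
    simp only [items, Multiset.count_add, Multiset.count_replicate]
    rcases List.mem_cons.1 ht with h | h
    · subst h
      have h2 : (items us).count t.1 = 0 := by
        have : ∀ vs : List Ty, t.1 ∉ vs.map (·.1) → (items vs).count t.1 = 0 := by
          intro vs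
          induction vs with
          | nil => simp [items]
          | cons v vs ihv =>
            intro hv
            simp only [List.map_cons, List.mem_cons, not_or] at hv
            simp only [items, Multiset.count_add, Multiset.count_replicate]
            simp [Ne.symm hv.1, ihv hv.2]
        exact this us hnd.1
      simp [h2]
    · have hne : u.1 ≠ t.1 := fun hh => hnd.1 (hh ▸ List.mem_map.2 ⟨t, h, rfl⟩)
      simpa [hne] using ih hnd.2 h

/-- The certificate theorem: if the final bit is off, no list of bins fitting `caps` holds exactly
the items of `all`. -/
theorem no_fit (all : List Ty) (hnd : Nd all) (caps : List ℕ)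
    (h : (run all caps).testBit (target all) = false) (bins : List (Multiset ℕ))
    (hf : Fits bins caps) : bins.sum ≠ items all := by
  intro hs
  have h1 := testBit_run all hnd caps bins hf (by
    intro t ht
    rw [hs]
    exact count_items_le all hnd t ht)
  rw [hs, code_items all hnd, h] at h1
  exact absurd h1 (by simp)

end Vale.Agent.Lib.P302
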