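import Vale.Agent.Lib.P302.Bridge

/-! Assembly of the certificates for a composite instance. -/

namespace Vale.Agent.Lib.P302

/-- The list of all items of a typed list. -/
def flat : List Ty → List ℕ
  | [] => []
  | t :: ts => List.replicate t.2.1 t.1 ++ flat ts

lemma coe_flat (ts : List Ty) : ((flat ts : List ℕ) : Multiset ℕ) = items ts := by
  induction ts with
  | nil => rfl
  | cons t ts ih =>
    simp only [flat, items]
    rw [← Multiset.coe_add, ih, Multiset.coe_replicate]

/-- The composite instance: `k2` copies of `big`, the items `Sb` (big items of `S`), the items of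
`Sr` and the items of `T2`. -/
def composite (k2 big : ℕ) (Sb : List ℕ) (Sr T2 : List Ty) : List ℕ :=
  List.replicate k2 big ++ (Sb ++ flat Sr ++ flat T2)

/-- The non-existence of a packing of the composite instance, from two bitset certificates. -/
theorem composite_no_bins (L k k2 big x xw a : ℕ) (Sb : List ℕ) (Sr T2 : List Ty)
    (hbig : L < big + big) (ha : a = L - big)
    (hS : ∀ s ∈ Sb ++ flat Sr, a < s)
    (hT : ∀ t ∈ flat T2, t ≤ a ∧ x ≤ t)
    (hSb : ∀ b ∈ Sb, ∀ b' ∈ Sb, L < b + b')
    (hNS : Nd ((x, 1, xw) :: Sr)) (hNT : Nd T2)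
    (cS : (run ((x, 1, xw) :: Sr) (Sb.map (L - ·) ++ List.replicate (k - Sb.length) L)).testBit
      (target ((x, 1, xw) :: Sr)) = false)
    (cT : (run T2 (List.replicate k2 a)).testBit (target T2) = false)
    (bins : List (Multiset ℕ)) (hk : bins.length = k + k2) (hb : ∀ t ∈ bins, t.sum ≤ L) :
    bins.sum ≠ (composite k2 big Sb Sr T2 : Multiset ℕ) := by
  have e : ((composite k2 big Sb Sr T2 : List ℕ) : Multiset ℕ)
      = ((List.replicate k2 big : List ℕ) : Multiset ℕ) +
        (((Sb ++ flat Sr : List ℕ) : Multiset ℕ) + items T2) := by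
    simp only [composite, ← coe_flat, Multiset.coe_add]
  rw [e]
  apply compose L k k2 big x a _ _ hbig ha (fun s hs => hS s (by simpa using hs))
    (fun t ht => hT t (by rw [← coe_flat] at ht; simpa using ht))
  · intro bins' hk' hb'
    have e2 : ((Sb ++ flat Sr : List ℕ) : Multiset ℕ) + {x}
        = (Sb : Multiset ℕ) + items ((x, 1, xw) :: Sr) := by
      simp only [items, ← coe_flat, ← Multiset.coe_add, Multiset.replicate_succ,
        Multiset.replicate_zero]
      simp only [Multiset.coe_add]
      rw [Multiset.cons_zero, ← Multiset.coe_add]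
      abel
    rw [e2]
    exact no_fit_big L k Sb _ hNS hSb cS bins' hk' hb'
  · intro bins' hk' hb'
    have hf : Fits bins' (List.replicate k2 a) := by
      have := fits_replicate a bins' hb'
      rwa [hk'] at this
    exact no_fit T2 hNT _ cT bins' hf
  · exact hk
  · exact hb

end Vale.Agent.Lib.P302
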